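import Vale.Agent.P073.PA644.Sub
import Vale.Agent.P073.PR.Cut

/-!
# P073, block PA: gluing two balls along a disc
-/

open Set Metric Topology Filter

namespace P073.PA644

open P073 P073.GB932
open Vale.Agent.P073.St (V)
open Vale.Agent.P073 (Sep.isOpen_image_of_injOn)

variable {E : Type*} [NormedAddCommGroup E] [NormedSpace ℝ E]

/-- two balls with the same boundary, the open ball of one contained in the other one, are equal -/
theorem ball_eq {n : ℕ} {D D' γ : Set E} (h : ConBall (n + 1) D γ) (h' : ConBall (n + 1) D' γ)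
    (hsub : D \ γ ⊆ D' \ γ) : D = D' := by
  obtain ⟨x0, hx0⟩ := ConBall.diff_nonempty h
  have hDc := h.isClosed
  have hd := (h'.diff_preconn_dense (Nat.succ_pos n)).2
  have hγD : γ ⊆ D := h.1
  have hγD' : γ ⊆ D' := h'.1
  have hDD' : D ⊆ D' := by
    intro x hx
    by_cases hg : x ∈ γ
    · exact hγD' hg
    · exact (hsub ⟨hx, hg⟩).1
  refine Subset.antisymm hDD' ?_
  suffices hs : D' \ γ ⊆ D from hd.trans (closure_minimal hs hDc)
  obtain ⟨-, φ, hφ⟩ := h
  obtain ⟨-, φ', hφ'⟩ := h'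
  -- charts of open balls
  have chart : ∀ {A : Set E} (ψ : ConHomeo A (closedBall (0 : Fin (n + 1) → ℝ) 1)),
      γ ⊆ A → ψ.toFun '' γ = sphere 0 1 →
      (∀ x ∈ A \ γ, ψ.toFun x ∈ ball (0 : Fin (n + 1) → ℝ) 1) ∧
      (∀ y ∈ ball (0 : Fin (n + 1) → ℝ) 1, ψ.invFun y ∈ A \ γ) := by
    intro A ψ hγA hψ
    constructor
    · rintro x ⟨hx, hxg⟩
      have h2 : ψ.toFun x ∈ closedBall (0 : Fin (n + 1) → ℝ) 1 := ψ.mapsTo hx
      rw [mem_ball_zero_iff]
      rcases (mem_closedBall_zero_iff.1 h2).lt_or_eq with h3 | h3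
      · exact h3
      · exfalso
        have h4 : ψ.toFun x ∈ ψ.toFun '' γ := by rw [hψ]; exact mem_sphere_zero_iff_norm.2 h3
        obtain ⟨b, hb, hbx⟩ := h4
        exact hxg (ψ.injOn (hγA hb) hx hbx ▸ hb)
    · intro y hy
      have hy' := ball_subset_closedBall hy
      refine ⟨ψ.mapsTo_inv hy', fun hyB => ?_⟩
      have h4 : ψ.toFun (ψ.invFun y) ∈ ψ.toFun '' γ := mem_image_of_mem _ hyB
      rw [ψ.right_inv hy', hψ, mem_sphere_zero_iff_norm] at h4
      rw [mem_ball_zero_iff, h4] at hy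
      exact lt_irrefl _ hy
  obtain ⟨c1, c2⟩ := chart φ hγD hφ
  obtain ⟨c1', c2'⟩ := chart φ' hγD' hφ'
  have hO : IsOpen ((fun y => φ'.toFun (φ.invFun y)) '' ball (0 : Fin (n + 1) → ℝ) 1) := by
    refine Sep.isOpen_image_of_injOn isOpen_ball ?_ ?_
    · exact (φ'.cont.mono hDD').comp (φ.cont_inv.mono ball_subset_closedBall)
        (fun y hy => (c2 y hy).1)
    · intro y hy y' hy' he
      have := φ'.injOn (hDD' (c2 y hy).1) (hDD' (c2 y' hy').1) he
      exact φ.right_inv.injOn (ball_subset_closedBall hy) (ball_subset_closedBall hy') this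
  have hW : IsOpen (ball (0 : Fin (n + 1) → ℝ) 1 ∩ φ'.invFun ⁻¹' Dᶜ) :=
    (φ'.cont_inv.mono ball_subset_closedBall).isOpen_inter_preimage isOpen_ball hDc.isOpen_compl
  have hall := (convex_ball (0 : Fin (n + 1) → ℝ) 1).isPreconnected.subset_left_of_subset_union
    hO hW ?_ ?_ ?_
  · intro x hx
    obtain ⟨y, hy, hyx⟩ := hall (c1' x hx)
    have := φ'.injOn (hDD' (c2 y hy).1) hx.1 hyx
    rw [← this]
    exact (c2 y hy).1
  · refine Set.disjoint_left.2 ?_
    rintro _ ⟨y, hy, rfl⟩ ⟨-, h2⟩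
    apply h2
    show φ'.invFun (φ'.toFun (φ.invFun y)) ∈ D
    rw [φ'.left_inv (hDD' (c2 y hy).1)]
    exact (c2 y hy).1
  · intro y hy
    by_cases hyD : φ'.invFun y ∈ D
    · left
      have h3 : φ'.invFun y ∈ D \ γ := ⟨hyD, (c2' y hy).2⟩
      refine ⟨φ.toFun (φ'.invFun y), c1 _ h3, ?_⟩
      show φ'.toFun (φ.invFun (φ.toFun (φ'.invFun y))) = y
      rw [φ.left_inv hyD, φ'.right_inv (ball_subset_closedBall hy)]
    · exact Or.inr ⟨hy, hyD⟩
  · refine ⟨φ'.toFun x0, c1' _ (hsub hx0), φ.toFun x0, c1 _ hx0, ?_⟩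
    show φ'.toFun (φ.invFun (φ.toFun x0)) = _
    rw [φ.left_inv hx0.1]

/-- the complementary disc -/
theorem conBall_compl {n : ℕ} {S D γ : Set E} (hJ : JordanSch (n + 1) S) (hD : ConBall (n + 1) D γ)
    (hDS : D ⊆ S) : ConBall (n + 1) ((S \ D) ∪ γ) γ := by
  obtain ⟨U, W, hd, hu, hUne, hWne, hU, hW⟩ := hJ γ (hD.1.trans hDS) hD.conSphere
  have hcov : D \ γ ⊆ (U ∪ γ) ∪ (W ∪ γ) := by
    rintro x ⟨hx, hxg⟩
    have : x ∈ U ∪ W := by rw [hu]; exact ⟨hDS hx, hxg⟩
    rcases this with h | h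
    · exact Or.inl (Or.inl h)
    · exact Or.inr (Or.inl h)
  have key : ∀ U W : Set E, Disjoint U W → U ∪ W = S \ γ → ConBall (n + 1) (U ∪ γ) γ →
      ConBall (n + 1) (W ∪ γ) γ → D \ γ ⊆ U ∪ γ → ConBall (n + 1) ((S \ D) ∪ γ) γ := by
    intro U W hd hu hU hW h
    have he : D = U ∪ γ := ball_eq hD hU (fun x hx => ⟨h hx, hx.2⟩)
    have : (S \ D) ∪ γ = W ∪ γ := by
      ext x
      constructor
      · rintro (⟨h1, h2⟩ | h1)
        · left
          have hxg : x ∉ γ := fun hg => h2 (hD.1 hg)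
          have : x ∈ U ∪ W := by rw [hu]; exact ⟨h1, hxg⟩
          exact this.resolve_left (fun hh => h2 (he ▸ Or.inl hh))
        · exact Or.inr h1
      · rintro (h1 | h1)
        · left
          have h2 : x ∈ S \ γ := hu ▸ Or.inr h1
          refine ⟨h2.1, fun hxD => ?_⟩
          rw [he] at hxD
          rcases hxD with h3 | h3
          · exact Set.disjoint_left.1 hd h3 h1
          · exact h2.2 h3
        · exact Or.inr h1
    rw [this]; exact hW
  rcases IsPreconnected.subset_or (hD.diff_preconn_dense (Nat.succ_pos n)).1 hU.isClosed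
    hW.isClosed hcov (by
      rintro x ⟨_, hxg⟩ (h1 | h1) (h2 | h2)
      · exact Set.disjoint_left.1 hd h1 h2
      · exact hxg h2
      · exact hxg h1
      · exact hxg h1) with h | h
  · exact key U W hd hu hU hW h
  · exact key W U hd.symm (by rw [union_comm]; exact hu) hW hU h

/-- **Adding a ball.** Two balls whose intersection is a disc in both boundaries. -/
theorem add_ball {A B SA SB D γ : Set E} (hA : ConBall 3 A SA) (hB : ConBall 3 B SB)
    (hD : ConBall 2 D γ) (hAB : A ∩ B = D) (hDA : D ⊆ SA) (hDB : D ⊆ SB) :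
    ConBall 3 (A ∪ B) ((SA \ D) ∪ (SB \ D) ∪ γ) ∧ ConBall 2 ((SA \ D) ∪ γ) γ ∧
      ConBall 2 ((SB \ D) ∪ γ) γ := by
  have h1 := conBall_compl (GB3.conBall_jordanSch hA H339.jordanSch_sphere) hD hDA
  have h2 := conBall_compl (GB3.conBall_jordanSch hB H339.jordanSch_sphere) hD hDB
  have hγ := hD.1
  have e : ∀ S : Set E, D ⊆ S → D ∪ ((S \ D) ∪ γ) = S := by
    intro S hS
    ext x
    constructor
    · rintro (h | ⟨h, -⟩ | h)
      · exact hS h
      · exact h
      · exact hS (hγ h)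
    · intro h
      by_cases hx : x ∈ D
      · exact Or.inl hx
      · exact Or.inr (Or.inl ⟨h, hx⟩)
  have e2 : ∀ S : Set E, D ∩ ((S \ D) ∪ γ) = γ := by
    intro S
    ext x
    constructor
    · rintro ⟨h, ⟨_, h'⟩ | h'⟩
      · exact absurd h h'
      · exact h'
    · intro h; exact ⟨hγ h, Or.inr h⟩
  refine ⟨?_, h1, h2⟩
  have := ConBall.union two_ne_zero (X := A) (Y := B) (D := D) (by rw [e SA hDA]; exact hA)
    (by rw [e SB hDB]; exact hB) hAB h1 h2 hD (e2 SA) (e2 SB)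
  convert this using 1
  ext x
  simp only [mem_union]
  tauto

end P073.PA644
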