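import Vale.Agent.P073.GB932.Final
import Vale.Agent.P073.PA285.Asm
import Vale.Agent.P073.GB3.Circ3
import Vale.Agent.P073.H339.Ball23
import Vale.Agent.P073.GB3.Body

/-!
# P073, block PA: adding and subtracting balls along discs
-/

open Set Metric Topology Filter

namespace P073.PA644

open P073 P073.GB932
open Vale.Agent.P073.St (V)
open Vale.Agent.P073 (Sep.isOpen_image_of_injOn)

/-- the boundary of a conical ball of full dimension is its frontier -/
theorem frontier_conBall {n : ℕ} {C B : Set (Fin n → ℝ)} (h : ConBall n C B) :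
    frontier C = B := by
  have hC := h.isClosed
  have ho := h.isOpen_diff
  have h1 : C \ B ⊆ interior C := interior_maximal Set.sdiff_subset ho
  rw [hC.frontier_eq]
  apply Subset.antisymm
  · rintro x ⟨hx, hxi⟩
    by_contra hB
    exact hxi (h1 ⟨hx, hB⟩)
  · intro x hx
    refine ⟨h.1 hx, fun hxi => ?_⟩
    obtain ⟨hBC, φ, hφ⟩ := h
    have h2 : IsOpen (φ.toFun '' interior C) :=
      Sep.isOpen_image_of_injOn isOpen_interior (φ.cont.mono interior_subset)
        (φ.injOn.mono interior_subset)
    have h3 : φ.toFun '' interior C ⊆ closedBall 0 1 := by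
      rintro _ ⟨y, hy, rfl⟩; exact φ.mapsTo (interior_subset hy)
    have h4 : φ.toFun x ∈ interior (closedBall (0 : Fin n → ℝ) 1) :=
      (interior_maximal h3 h2) (mem_image_of_mem _ hxi)
    have h5 : φ.toFun x ∈ sphere (0 : Fin n → ℝ) 1 := hφ ▸ mem_image_of_mem _ hx
    rw [interior_closedBall _ one_ne_zero] at h4
    rw [mem_ball_zero_iff] at h4
    rw [mem_sphere_zero_iff_norm] at h5
    linarith

theorem interior_conBall {n : ℕ} {C B : Set (Fin n → ℝ)} (h : ConBall n C B) :
    interior C = C \ B := by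
  rw [← frontier_conBall h, self_sdiff_frontier]

theorem closure_interior_conBall {n : ℕ} {C B : Set (Fin (n + 1) → ℝ)} (h : ConBall (n + 1) C B) :
    closure (interior C) = C := by
  rw [interior_conBall h]
  exact Subset.antisymm (closure_minimal Set.sdiff_subset h.isClosed)
    (h.diff_preconn_dense (Nat.succ_pos n)).2

theorem preconn_interior_conBall {n : ℕ} {C B : Set (Fin (n + 1) → ℝ)}
    (h : ConBall (n + 1) C B) : IsPreconnected (interior C) := by
  rw [interior_conBall h]
  exact (h.diff_preconn_dense (Nat.succ_pos n)).1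

theorem interior_conBall_nonempty {n : ℕ} {C B : Set (Fin (n + 1) → ℝ)}
    (h : ConBall (n + 1) C B) : (interior C).Nonempty := by
  rw [interior_conBall h]
  exact ConBall.diff_nonempty h

/-- **Subtracting a ball.** `A` and `B ⊆ A` are balls, `frontier B = E ∪ E'` where `E` is the part on
the frontier of `A`, and `E'` is a disc.  Then `closure (A \ B)` is a ball with frontier
`(frontier A \ E) ∪ E'`. -/
theorem sub_ball (hA3 : AmbStd 3) {A B E E' γ : Set V} (hA : ConBall 3 A (frontier A))
    (hB : ConBall 3 B (frontier B)) (hBA : B ⊆ A) (hE : frontier B ∩ frontier A = E)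
    (hEE : E ∪ E' = frontier B) (hE' : ConBall 2 E' γ) (hγ : E ∩ E' = γ) :
    ConBall 3 (closure (A \ B)) (frontier (closure (A \ B))) ∧
      frontier (closure (A \ B)) = (frontier A \ E) ∪ E' ∧
      closure (A \ B) = (A \ B) ∪ E' ∧ ConBall 2 E γ ∧ ConBall 2 ((frontier A \ E) ∪ γ) γ := by
  have hAc := hA.isClosed
  have hBc := hB.isClosed
  have hE'B : E' ⊆ B := (hEE ▸ subset_union_right).trans hBc.frontier_subset
  have hE'f : E' ⊆ frontier B := hEE ▸ subset_union_right
  have hE'A : E' ∩ frontier A = γ := by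
    rw [← hγ]
    ext x
    constructor
    · rintro ⟨h1, h2⟩
      exact ⟨hE ▸ ⟨hE'f h1, h2⟩, h1⟩
    · rintro ⟨h1, h2⟩
      rw [← hE] at h1
      exact ⟨h2, h1.2⟩
  have hγE : γ ⊆ E := hγ ▸ inter_subset_left
  obtain ⟨B₁, B₂, C₁, C₂, hBu, hBi, hB₁, hB₂, hC₁, hC₂, hCu, hCi⟩ :=
    GB200.cut_three hA3 H339.jordanSch_sphere hA hE' (hE'B.trans hBA) hE'A
  have key : ∀ (B₁ B₂ C₁ C₂ : Set V), B₁ ∪ B₂ = frontier A → B₁ ∩ B₂ = γ → ConBall 2 B₁ γ →
      ConBall 2 B₂ γ → ConBall 3 C₁ (B₁ ∪ E') → ConBall 3 C₂ (B₂ ∪ E') → C₁ ∪ C₂ = A →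
      C₁ ∩ C₂ = E' → interior B ⊆ interior C₁ →
      ConBall 3 (closure (A \ B)) (frontier (closure (A \ B))) ∧
      frontier (closure (A \ B)) = (frontier A \ E) ∪ E' ∧
      closure (A \ B) = (A \ B) ∪ E' ∧ ConBall 2 E γ ∧
      ConBall 2 ((frontier A \ E) ∪ γ) γ := by
    intro B₁ B₂ C₁ C₂ hBu hBi hB₁ hB₂ hC₁ hC₂ hCu hCi hint
    have f1 := frontier_conBall hC₁
    have f2 := frontier_conBall hC₂
    have hC₁A : C₁ ⊆ A := hCu ▸ subset_union_left
    have hd : Disjoint (interior C₁) (frontier B) := by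
      rw [← hEE, ← hE]
      refine Set.disjoint_left.2 ?_
      rintro x hx (h | h)
      · exact h.2.2 (interior_mono hC₁A hx)
      · have h3 : x ∈ frontier C₁ := f1 ▸ Or.inr h
        exact h3.2 hx
    obtain ⟨b, hb⟩ := interior_conBall_nonempty hB
    have h1 : interior C₁ ⊆ interior B :=
      Vale.Agent.P073.PA285.subset_interior_of_preconn (preconn_interior_conBall hC₁) hd
        (hint hb) hb
    have hii : interior B = interior C₁ := Subset.antisymm hint h1
    have hBC : B = C₁ := by
      rw [← closure_interior_conBall hB, hii, closure_interior_conBall hC₁]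
    have hB₁E : B₁ = E := by
      apply Subset.antisymm
      · intro x hx
        rw [← hE]
        refine ⟨?_, hBu ▸ Or.inl hx⟩
        rw [hBC, f1]; exact Or.inl hx
      · intro x hx
        have h2 : x ∈ frontier B := hEE ▸ Or.inl hx
        rw [hBC, f1] at h2
        rcases h2 with h2 | h2
        · exact h2
        · have : x ∈ γ := hγ ▸ ⟨hx, h2⟩
          rw [← hBi] at this
          exact this.1
    have hB₂E : B₂ = (frontier A \ E) ∪ γ := by
      rw [← hBu, ← hB₁E]
      ext x
      constructor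
      · intro hx
        by_cases h2 : x ∈ B₁
        · exact Or.inr (hBi ▸ ⟨h2, hx⟩)
        · exact Or.inl ⟨Or.inr hx, h2⟩
      · rintro (⟨h2 | h2, h3⟩ | h2)
        · exact absurd h2 h3
        · exact h2
        · rw [← hBi] at h2; exact h2.2
    have hsub : A \ B ⊆ C₂ := by
      rintro x ⟨hx, hxB⟩
      rw [← hCu] at hx
      exact hx.resolve_left (fun h => hxB (hBC ▸ h))
    have hcl : closure (A \ B) = C₂ := by
      apply Subset.antisymm (closure_minimal hsub hC₂.isClosed)
      rw [← closure_interior_conBall hC₂]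
      apply closure_mono
      intro x hx
      refine ⟨hCu ▸ Or.inr (interior_subset hx), fun hxB => ?_⟩
      have h3 : x ∈ E' := by
        rw [← hCi]
        exact ⟨hBC ▸ hxB, interior_subset hx⟩
      have h4 : x ∈ frontier C₂ := f2 ▸ Or.inr h3
      exact h4.2 hx
    have hfr : B₂ ∪ E' = (frontier A \ E) ∪ E' := by
      rw [hB₂E]
      ext x
      constructor
      · rintro ((h | h) | h)
        · exact Or.inl h
        · rw [← hγ] at h; exact Or.inr h.2
        · exact Or.inr h
      · rintro (h | h)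
        · exact Or.inl (Or.inl h)
        · exact Or.inr h
    refine ⟨?_, ?_, ?_, ?_, ?_⟩
    · rw [hcl, f2]; exact hC₂
    · rw [hcl, f2, hfr]
    · rw [hcl]
      apply Subset.antisymm
      · intro x hx
        by_cases h3 : x ∈ B
        · right
          rw [← hCi]
          exact ⟨hBC ▸ h3, hx⟩
        · exact Or.inl ⟨hCu ▸ Or.inr hx, h3⟩
      · rintro x (h | h)
        · exact hsub h
        · rw [← hCi] at h; exact h.2
    · rw [← hB₁E]; exact hB₁
    · rw [← hB₂E]; exact hB₂
  -- the interior of `B` is in one of the two parts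
  have f1 := frontier_conBall hC₁
  have f2 := frontier_conBall hC₂
  have hsub : interior B ⊆ interior C₁ ∪ interior C₂ := by
    intro x hx
    have hxA : x ∈ interior A := interior_mono hBA hx
    have hxE : x ∉ E' := fun h => (hE'f h).2 hx
    have hxC : x ∈ C₁ ∪ C₂ := hCu ▸ interior_subset hxA
    have hxf : x ∉ frontier A := fun h => h.2 hxA
    rcases hxC with h | h
    · left
      rw [interior_conBall hC₁]
      refine ⟨h, ?_⟩
      rintro (h' | h')
      · exact hxf (hBu ▸ Or.inl h')
      · exact hxE h'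
    · right
      rw [interior_conBall hC₂]
      refine ⟨h, ?_⟩
      rintro (h' | h')
      · exact hxf (hBu ▸ Or.inr h')
      · exact hxE h'
  have hdis : Disjoint (interior C₁) (interior C₂) := by
    refine Set.disjoint_left.2 fun x h1 h2 => ?_
    have h3 : x ∈ E' := hCi ▸ ⟨interior_subset h1, interior_subset h2⟩
    have h4 : x ∈ frontier C₁ := f1 ▸ Or.inr h3
    exact h4.2 h1
  rcases (isPreconnected_iff_subset_of_disjoint.1 (preconn_interior_conBall hB)) _ _
    isOpen_interior isOpen_interior hsub (by rw [hdis.inter_eq, inter_empty]) with h | h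
  · exact key B₁ B₂ C₁ C₂ hBu hBi hB₁ hB₂ hC₁ hC₂ hCu hCi h
  · exact key B₂ B₁ C₂ C₁ (by rw [union_comm]; exact hBu) (by rw [inter_comm]; exact hBi) hB₂ hB₁
      hC₂ hC₁ (by rw [union_comm]; exact hCu) (by rw [inter_comm]; exact hCi) h

end P073.PA644
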