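import Vale.Agent.P073.PA691.Spec
import Vale.Agent.P073.TR.Level2

/-!
# P073, block PA: SpecLev
-/

open Set Metric Topology Filter

namespace P073.PA644

open P073 P073.PA691

/-- (LEV) -/
theorem specLev : SpecLev := by
  intro U u hU huc hu
  obtain ⟨C, hC, h⟩ := TR.exists_generic_circles (by simp [P2]) hU hu huc
  refine ⟨C, hC, fun c hc hcomp => ?_⟩
  have hset : U ∩ u ⁻¹' {c} = {x | x ∈ U ∧ u x = c} := by
    ext x; simp
  rw [hset] at hcomp ⊢
  obtain ⟨J, hJ, Cs, hun, hdis, hs⟩ := h c hc hcomp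
  obtain ⟨n, ⟨e⟩⟩ := Finite.exists_equiv_fin J
  refine ⟨n, fun i => Cs (e.symm i), fun j => hs _, fun i j hij => hdis _ _ ?_, ?_⟩
  · intro h; exact hij (e.symm.injective h)
  · rw [← hun]
    ext x
    simp only [mem_iUnion]
    constructor
    · rintro ⟨j, hj⟩; exact ⟨e j, by simpa using hj⟩
    · rintro ⟨j, hj⟩; exact ⟨e.symm j, hj⟩

end P073.PA644
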