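import Vale.Agent.P073.PA691.TMSpec

/-!
# P073, block TM-F: the radial function `phi`
-/

open Set Metric Topology Filter

namespace P073.PA644

open P073 P073.PR720 P073.PA691
open Vale.Agent.P073.St (V)

/-! ### distance to a box -/

section boxdist

variable {lo hi : V}

/-- nearest point of the box -/
noncomputable def clp (lo hi z : V) : V := fun k => max (lo k) (min (hi k) (z k))

theorem clp_mem (h : ∀ k, lo k ≤ hi k) (z : V) : clp lo hi z ∈ Icc lo hi :=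
  ⟨fun _ => le_max_left _ _, fun k => max_le (h k) (min_le_left _ _)⟩

theorem abs_sub_clp (h : ∀ k, lo k ≤ hi k) (z : V) (k : Fin 3) :
    |z k - clp lo hi z k| = max (max (lo k - z k) (z k - hi k)) 0 := by
  unfold clp
  rcases le_total (z k) (lo k) with h1 | h1
  · rw [min_eq_right (h1.trans (h k)), max_eq_left h1, abs_of_nonpos (by linarith),
      max_eq_left (by linarith [h k] : z k - hi k ≤ lo k - z k), max_eq_left (by linarith)]
    ring
  · rcases le_total (z k) (hi k) with h2 | h2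
    · rw [min_eq_right h2, max_eq_right h1, sub_self, abs_zero]
      rw [max_eq_right]
      exact max_le (by linarith) (by linarith)
    · rw [min_eq_left h2, max_eq_right (h k), abs_of_nonneg (by linarith),
        max_eq_right (by linarith [h k] : lo k - z k ≤ z k - hi k), max_eq_left (by linarith)]

theorem infDist_Icc (h : ∀ k, lo k ≤ hi k) (z : V) :
    infDist z (Icc lo hi) = dist z (clp lo hi z) := by
  apply le_antisymm (infDist_le_dist_of_mem (clp_mem h z))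
  rw [le_infDist ⟨_, clp_mem h z⟩]
  intro y hy
  rw [dist_pi_le_iff dist_nonneg]
  intro k
  rw [Real.dist_eq, abs_sub_clp h]
  have h1 : |z k - y k| ≤ dist z y := by
    rw [← Real.dist_eq]; exact dist_le_pi_dist z y k
  have h2 := hy.1 k
  have h3 := hy.2 k
  refine max_le (max_le ?_ ?_) dist_nonneg
  · exact le_trans (by linarith [neg_abs_le (z k - y k)]) h1
  · exact le_trans (by linarith [le_abs_self (z k - y k)]) h1

theorem infDist_Icc_le (h : ∀ k, lo k ≤ hi k) {z : V} {t : ℝ} (ht : 0 ≤ t) :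
    infDist z (Icc lo hi) ≤ t ↔ ∀ k, lo k - t ≤ z k ∧ z k ≤ hi k + t := by
  rw [infDist_Icc h, dist_pi_le_iff ht]
  refine forall_congr' fun k => ?_
  rw [Real.dist_eq, abs_sub_clp h, max_le_iff, max_le_iff]
  constructor
  · rintro ⟨⟨h1, h2⟩, _⟩; exact ⟨by linarith, by linarith⟩
  · rintro ⟨h1, h2⟩; exact ⟨⟨by linarith, by linarith⟩, ht⟩

theorem infDist_Icc_lt (h : ∀ k, lo k ≤ hi k) {z : V} {t : ℝ} (ht : 0 < t) :
    infDist z (Icc lo hi) < t ↔ ∀ k, lo k - t < z k ∧ z k < hi k + t := by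
  rw [infDist_Icc h, dist_pi_lt_iff ht]
  refine forall_congr' fun k => ?_
  rw [Real.dist_eq, abs_sub_clp h, max_lt_iff, max_lt_iff]
  constructor
  · rintro ⟨⟨h1, h2⟩, _⟩; exact ⟨by linarith, by linarith⟩
  · rintro ⟨h1, h2⟩; exact ⟨⟨by linarith, by linarith⟩, ht⟩

/-- the distance is attained in some coordinate -/
theorem exists_coord (h : ∀ k, lo k ≤ hi k) {z : V} {t : ℝ} (ht : 0 < t)
    (hz : infDist z (Icc lo hi) = t) : ∃ k, z k = lo k - t ∨ z k = hi k + t := by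
  by_contra hcon
  push Not at hcon
  have h1 := (infDist_Icc_le h ht.le).1 hz.le
  have h2 : infDist z (Icc lo hi) < t := (infDist_Icc_lt h ht).2 fun k =>
    ⟨lt_of_le_of_ne (h1 k).1 (Ne.symm (hcon k).1), lt_of_le_of_ne (h1 k).2 (hcon k).2⟩
  exact h2.ne hz

end boxdist

/-! ### the constraints -/

namespace PH

variable {Λ : Set V} {v : V} {K : BoxCx Λ v} (s : K.Sizes)

/-- lower corner of the core of a constraint -/
def lo (K : BoxCx Λ v) : K.W ⊕ K.G → V := Sum.elim K.w fun e => K.w (K.a e)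

/-- upper corner of the core of a constraint -/
def hi (K : BoxCx Λ v) : K.W ⊕ K.G → V := Sum.elim K.w fun e => K.w (K.b e)

/-- radius -/
def rd : K.W ⊕ K.G → ℝ := Sum.elim s.r s.q

/-- the value -/
noncomputable def val (α : K.W ⊕ K.G) (z : V) : ℝ := infDist z (Icc (lo K α) (hi K α)) / rd s α

theorem lo_le_hi (α : K.W ⊕ K.G) (k : Fin 3) : lo K α k ≤ hi K α k := by
  rcases α with i | e
  · exact le_refl _
  · by_cases hk : k = K.dir e
    · subst hk; exact (K.ab_dir e).le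
    · exact (K.ab_off e k hk).le

theorem rd_pos (α : K.W ⊕ K.G) : 0 < rd s α := by
  rcases α with i | e
  · obtain ⟨n, hn⟩ := s.r_dy i
    show 0 < s.r i
    rw [hn]; positivity
  · obtain ⟨n, hn⟩ := s.q_dy e
    show 0 < s.q e
    rw [hn]; positivity

theorem val_le {α : K.W ⊕ K.G} {z : V} {c : ℝ} (hc : 0 ≤ c) : val s α z ≤ c ↔
    ∀ k, lo K α k - c * rd s α ≤ z k ∧ z k ≤ hi K α k + c * rd s α := by
  have h0 := rd_pos s α
  rw [val, div_le_iff₀ h0, infDist_Icc_le (lo_le_hi α) (by positivity)]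

theorem val_lt {α : K.W ⊕ K.G} {z : V} {c : ℝ} (hc : 0 < c) : val s α z < c ↔
    ∀ k, lo K α k - c * rd s α < z k ∧ z k < hi K α k + c * rd s α := by
  have h0 := rd_pos s α
  rw [val, div_lt_iff₀ h0, infDist_Icc_lt (lo_le_hi α) (by positivity)]

theorem mem_box_iff {c : ℝ} (hc : 0 ≤ c) {i : K.W} {z : V} :
    z ∈ closedBall (K.w i) (c * s.r i) ↔ val s (.inl i) z ≤ c := by
  rw [val_le s hc, mem_closedBall, dist_pi_le_iff (by have := rd_pos s (.inl i); positivity)]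
  refine forall_congr' fun k => ?_
  show dist (z k) (K.w i k) ≤ c * s.r i ↔ K.w i k - c * s.r i ≤ z k ∧ z k ≤ K.w i k + c * s.r i
  rw [Real.dist_eq, abs_le]
  constructor
  · rintro ⟨h1, h2⟩; exact ⟨by linarith, by linarith⟩
  · rintro ⟨h1, h2⟩; exact ⟨by linarith, by linarith⟩

theorem mem_ball_iff {c : ℝ} (hc : 0 < c) {i : K.W} {z : V} :
    z ∈ ball (K.w i) (c * s.r i) ↔ val s (.inl i) z < c := by
  have h0 : 0 < s.r i := rd_pos s (.inl i)
  rw [val_lt s hc, mem_ball, dist_pi_lt_iff (by positivity)]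
  refine forall_congr' fun k => ?_
  show dist (z k) (K.w i k) < c * s.r i ↔ K.w i k - c * s.r i < z k ∧ z k < K.w i k + c * s.r i
  rw [Real.dist_eq, abs_lt]
  constructor
  · rintro ⟨h1, h2⟩; exact ⟨by linarith, by linarith⟩
  · rintro ⟨h1, h2⟩; exact ⟨by linarith, by linarith⟩

theorem mem_nb_iff {c : ℝ} (hc : 0 ≤ c) {e : K.G} {z : V} :
    z ∈ K.nb e (c * s.q e) ↔ val s (.inr e) z ≤ c := by
  rw [val_le s hc]; rfl

theorem mem_nbo_iff {c : ℝ} (hc : 0 < c) {e : K.G} {z : V} :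
    z ∈ K.nbo e (c * s.q e) ↔ val s (.inr e) z < c := by
  rw [val_lt s hc]; rfl

theorem mem_H_iff {c : ℝ} (hc : 0 ≤ c) {z : V} : z ∈ s.H c ↔ ∃ α, val s α z ≤ c := by
  constructor
  · rintro (h | h)
    · obtain ⟨i, hi⟩ := mem_iUnion.1 h
      exact ⟨.inl i, (mem_box_iff s hc).1 hi⟩
    · obtain ⟨e, he⟩ := mem_iUnion.1 h
      exact ⟨.inr e, (mem_nb_iff s hc).1 he⟩
  · rintro ⟨i | e, h⟩
    · exact Or.inl (mem_iUnion.2 ⟨i, (mem_box_iff s hc).2 h⟩)
    · exact Or.inr (mem_iUnion.2 ⟨e, (mem_nb_iff s hc).2 h⟩)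

theorem mem_Hin_iff {c : ℝ} (hc : 0 < c) {z : V} : z ∈ s.Hin c ↔ ∃ α, val s α z < c := by
  constructor
  · rintro (h | h)
    · obtain ⟨i, hi⟩ := mem_iUnion.1 h
      exact ⟨.inl i, (mem_ball_iff s hc).1 hi⟩
    · obtain ⟨e, he⟩ := mem_iUnion.1 h
      exact ⟨.inr e, (mem_nbo_iff s hc).1 he⟩
  · rintro ⟨i | e, h⟩
    · exact Or.inl (mem_iUnion.2 ⟨i, (mem_ball_iff s hc).2 h⟩)
    · exact Or.inr (mem_iUnion.2 ⟨e, (mem_nbo_iff s hc).2 h⟩)

theorem val_inl (i : K.W) (z : V) : val s (.inl i) z = ‖z - K.w i‖ / s.r i := by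
  show infDist z (Icc (K.w i) (K.w i)) / s.r i = _
  rw [Icc_self, infDist_singleton, dist_eq_norm]

theorem val_inr (e : K.G) (z : V) : val s (.inr e) z = infDist z (K.edge e) / s.q e := rfl

theorem phi_eq (z : V) : s.phi z = sInf (insert 2 (range fun α => val s α z)) := by
  rw [BoxCx.Sizes.phi]
  congr 1
  congr 1
  ext t
  constructor
  · rintro (⟨i, h⟩ | ⟨e, h⟩)
    · exact ⟨.inl i, by rw [h, ← val_inl]⟩
    · exact ⟨.inr e, by rw [h, ← val_inr]⟩
  · rintro ⟨i | e, h⟩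
    · left; exact ⟨i, by rw [← val_inl]; exact h.symm⟩
    · right; exact ⟨e, by rw [← val_inr]; exact h.symm⟩

theorem val_nonneg (α : K.W ⊕ K.G) (z : V) : 0 ≤ val s α z :=
  div_nonneg infDist_nonneg (rd_pos s α).le

theorem bdd (z : V) : BddBelow (insert 2 (range fun α => val s α z)) := by
  refine ⟨0, ?_⟩
  rintro t (rfl | ⟨β, rfl⟩)
  · norm_num
  · exact val_nonneg s β z

theorem phi_le_val (α : K.W ⊕ K.G) (z : V) : s.phi z ≤ val s α z := by
  rw [phi_eq]
  exact csInf_le (bdd s z) (mem_insert_of_mem _ ⟨α, rfl⟩)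

theorem phi_le_two (z : V) : s.phi z ≤ 2 := by
  rw [phi_eq]
  exact csInf_le (bdd s z) (mem_insert _ _)

/-- the constraints near a point -/
theorem exists_nhds_finite {x : V} (hx : x ∈ Λ) :
    ∃ U ∈ 𝓝 x, {α | ∃ z ∈ U, val s α z ≤ 2}.Finite := by
  obtain ⟨U, hU, hUf⟩ := s.lfU x hx
  obtain ⟨U', hU', hUf'⟩ := s.lfTube x hx
  refine ⟨U ∩ U', inter_mem hU hU', ?_⟩
  refine ((hUf.image Sum.inl).union (hUf'.image Sum.inr)).subset ?_
  rintro (i | e) ⟨z, hz, h⟩
  · left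
    exact ⟨i, ⟨z, (mem_box_iff s two_pos.le).2 h, hz.1⟩, rfl⟩
  · right
    exact ⟨e, ⟨z, (mem_nb_iff s two_pos.le).2 h, hz.2⟩, rfl⟩

/-- `phi` is attained -/
theorem phi_attained {x : V} (hx : x ∈ Λ) : s.phi x = 2 ∨ ∃ α, s.phi x = val s α x := by
  obtain ⟨U, hU, hUf⟩ := exists_nhds_finite s hx
  have hxU := mem_of_mem_nhds hU
  set S : Set ℝ := insert 2 (range fun α => val s α x) with hS
  have hfin : (S ∩ Iic 2).Finite := by
    refine ((hUf.image fun α => val s α x).insert 2).subset ?_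
    rintro t ⟨rfl | ⟨α, rfl⟩, ht⟩
    · exact Or.inl rfl
    · exact Or.inr ⟨α, ⟨x, hxU, ht⟩, rfl⟩
  obtain ⟨m, hm, hmin⟩ := hfin.exists_minimal ⟨2, Or.inl rfl, le_refl (2:ℝ)⟩
  have hle : ∀ t ∈ S, m ≤ t := by
    intro t ht
    by_cases h : t ≤ 2
    · rcases le_total m t with h' | h'
      · exact h'
      · exact hmin ⟨ht, h⟩ h'
    · exact le_trans hm.2 (not_le.1 h).le
  have h1 : s.phi x = m := by
    rw [phi_eq]
    exact IsLeast.csInf_eq ⟨hm.1, hle⟩
  rcases hm.1 with h | ⟨α, h⟩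
  · left; rw [h1, h]
  · right; exact ⟨α, by rw [h1, ← h]⟩

theorem le_iff {c : ℝ} (hc0 : 0 ≤ c) (hc2 : c < 2) {x : V} (hx : x ∈ Λ) :
    s.phi x ≤ c ↔ x ∈ s.H c := by
  rw [mem_H_iff s hc0]
  constructor
  · intro h
    rcases phi_attained s hx with h1 | ⟨α, h1⟩
    · linarith
    · exact ⟨α, h1 ▸ h⟩
  · rintro ⟨α, h⟩
    exact (phi_le_val s α x).trans h

theorem lt_iff {c : ℝ} (hc0 : 0 < c) (hc2 : c ≤ 2) {x : V} (hx : x ∈ Λ) :
    s.phi x < c ↔ x ∈ s.Hin c := by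
  rw [mem_Hin_iff s hc0]
  constructor
  · intro h
    rcases phi_attained s hx with h1 | ⟨α, h1⟩
    · linarith
    · exact ⟨α, h1 ▸ h⟩
  · rintro ⟨α, h⟩
    exact (phi_le_val s α x).trans_lt h

theorem H_subset {c : ℝ} (hc0 : 0 ≤ c) (hc2 : c ≤ 2) : s.H c ⊆ Λ := by
  rintro x (h | h)
  · obtain ⟨i, hi⟩ := mem_iUnion.1 h
    refine s.U_sub i (closedBall_subset_closedBall ?_ hi)
    have h0 : 0 < s.r i := rd_pos s (.inl i)
    nlinarith
  · obtain ⟨e, he⟩ := mem_iUnion.1 h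
    refine s.tube_sub e fun k => ?_
    have h0 : 0 < s.q e := rd_pos s (.inr e)
    have h1 := he k
    constructor
    · nlinarith [h1.1]
    · nlinarith [h1.2]

theorem setOf_le {c : ℝ} (hc : c ∈ Ioo (1/2:ℝ) 1) : {x ∈ Λ | s.phi x ≤ c} = s.H c := by
  have h0 : 0 ≤ c := by linarith [hc.1]
  have h2 : c < 2 := by linarith [hc.2]
  ext x
  constructor
  · rintro ⟨hx, h⟩; exact (le_iff s h0 h2 hx).1 h
  · intro h
    have hx := H_subset s h0 h2.le h
    exact ⟨hx, (le_iff s h0 h2 hx).2 h⟩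

theorem setOf_eq {c : ℝ} (hc : c ∈ Ioo (1/2:ℝ) 1) : {x ∈ Λ | s.phi x = c} = s.F c := by
  have h0 : 0 < c := by linarith [hc.1]
  have h2 : c < 2 := by linarith [hc.2]
  ext x
  constructor
  · rintro ⟨hx, h⟩
    refine ⟨(le_iff s h0.le h2 hx).1 h.le, fun hin => ?_⟩
    have := (lt_iff s h0 h2.le hx).2 hin
    linarith
  · rintro ⟨hH, hin⟩
    have hx := H_subset s h0.le h2.le hH
    refine ⟨hx, le_antisymm ((le_iff s h0.le h2 hx).2 hH) ?_⟩
    by_contra hlt
    exact hin ((lt_iff s h0 h2.le hx).1 (not_le.1 hlt))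

/-- each constraint is Lipschitz -/
theorem val_lip (α : K.W ⊕ K.G) (y z : V) :
    val s α y ≤ val s α z + (rd s α)⁻¹ * dist y z := by
  have h0 := rd_pos s α
  rw [val, val, div_eq_mul_inv, div_eq_mul_inv, mul_comm (rd s α)⁻¹, ← add_mul]
  exact mul_le_mul_of_nonneg_right infDist_le_infDist_add_dist (inv_pos.2 h0).le

/-- **local Lipschitz bound** -/
theorem exists_lip {x : V} (hx : x ∈ Λ) :
    ∃ (C : NNReal) (U : Set V), U ∈ 𝓝 x ∧ LipschitzOnWith C s.phi U := by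
  obtain ⟨U, hU, hUf⟩ := exists_nhds_finite s hx
  obtain ⟨C, hC0, hC⟩ : ∃ C : ℝ, 0 ≤ C ∧ ∀ α, (∃ z ∈ U, val s α z ≤ 2) → (rd s α)⁻¹ ≤ C := by
    obtain ⟨C, hC⟩ := (hUf.image fun α => (rd s α)⁻¹).bddAbove
    exact ⟨max C 0, le_max_right _ _, fun α hα => (hC ⟨α, hα, rfl⟩).trans (le_max_left _ _)⟩
  have key : ∀ y ∈ U, ∀ z ∈ U, s.phi y ≤ s.phi z + C * dist y z := by
    intro y _ z hz
    refine le_of_forall_pos_le_add fun δ hδ => ?_
    have h1 : sInf (insert 2 (range fun α => val s α z)) < s.phi z + δ := by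
      rw [← phi_eq]; linarith
    obtain ⟨t, ht, htd⟩ := exists_lt_of_csInf_lt ⟨2, mem_insert _ _⟩ h1
    have hCd : 0 ≤ C * dist y z := mul_nonneg hC0 dist_nonneg
    by_cases h2 : t ≤ 2 ∧ t ≠ 2
    · rcases ht with rfl | ⟨α, rfl⟩
      · exact absurd rfl h2.2
      · have h3 := hC α ⟨z, hz, h2.1⟩
        have h4 := phi_le_val s α y
        have h5 := val_lip s α y z
        have h6 : (rd s α)⁻¹ * dist y z ≤ C * dist y z :=
          mul_le_mul_of_nonneg_right h3 dist_nonneg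
        have h7 : val s α z < s.phi z + δ := htd
        linarith
    · have h3 : 2 ≤ t := by
        by_contra h4
        exact h2 ⟨(not_le.1 h4).le, (not_le.1 h4).ne⟩
      have h4 := phi_le_two s y
      linarith
  refine ⟨⟨C, hC0⟩, U, hU, LipschitzOnWith.of_le_add_mul _ ?_⟩
  intro y hy z hz
  exact key y hy z hz

theorem phi_cont : ContinuousOn s.phi Λ := by
  intro x hx
  obtain ⟨C, U, hU, hl⟩ := exists_lip s hx
  exact (hl.continuousOn.continuousAt hU).continuousWithinAt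

end PH

end P073.PA644
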