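import Vale.Agent.P073.PA644.Phi

/-!
# P073, block TM-F: flat points of the surface, `SpecPhi`
-/

open Set Metric Topology Filter

namespace P073.PA644.PH

open P073 P073.PR720 P073.PA691 P073.PA644
open Vale.Agent.P073.St (V)

variable {Λ : Set V} {v : V} {K : BoxCx Λ v} (s : K.Sizes)

/-- special coordinate -/
def Sp (v x : V) (c : ℝ) (k : Fin 3) : Prop :=
  ∃ A B, IsDy A ∧ IsDy B ∧ B ≠ 0 ∧ x k = v k + A + c * B

theorem isDy_neg {x : ℝ} (h : IsDy x) : IsDy (-x) := by
  obtain ⟨z, m, rfl⟩ := h
  exact ⟨-z, m, by push_cast; ring⟩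

theorem isDy_rd (α : K.W ⊕ K.G) : IsDy (rd s α) := by
  rcases α with i | e
  · obtain ⟨n, hn⟩ := s.r_dy i
    exact ⟨1, n, by rw [show rd s (.inl i) = s.r i from rfl, hn]; norm_num⟩
  · obtain ⟨n, hn⟩ := s.q_dy e
    exact ⟨1, n, by rw [show rd s (.inr e) = s.q e from rfl, hn]; norm_num⟩

theorem isDy_lo (α : K.W ⊕ K.G) (k : Fin 3) : IsDy (lo K α k - v k) := by
  rcases α with i | e
  · exact K.w_dy i k
  · exact K.w_dy (K.a e) k

theorem isDy_hi (α : K.W ⊕ K.G) (k : Fin 3) : IsDy (hi K α k - v k) := by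
  rcases α with i | e
  · exact K.w_dy i k
  · exact K.w_dy (K.b e) k

theorem sp_of {α : K.W ⊕ K.G} {x : V} {c : ℝ} {k : Fin 3}
    (h : x k = lo K α k - c * rd s α ∨ x k = hi K α k + c * rd s α) : Sp v x c k := by
  have h0 := rd_pos s α
  rcases h with h | h
  · exact ⟨_, _, isDy_lo α k, isDy_neg (isDy_rd s α), by linarith, by rw [h]; ring⟩
  · exact ⟨_, _, isDy_hi α k, isDy_rd s α, by linarith, by rw [h]; ring⟩

theorem continuous_val (α : K.W ⊕ K.G) : Continuous (val s α) :=
  (continuous_infDist_pt _).div_const _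

/-- inactive constraints stay inactive -/
theorem eventually_inactive {x : V} (hx : x ∈ Λ) {c : ℝ} (hc : c < 2) :
    ∀ᶠ z in 𝓝 x, ∀ β, c < val s β x → c < val s β z := by
  obtain ⟨U, hU, hUf⟩ := exists_nhds_finite s hx
  have h1 : ∀ᶠ z in 𝓝 x, ∀ β ∈ {α | ∃ z ∈ U, val s α z ≤ 2}, c < val s β x → c < val s β z := by
    rw [eventually_all_finite hUf]
    intro β _
    by_cases h : c < val s β x
    · filter_upwards [(continuous_val s β).continuousAt.eventually_const_lt h] with z hz
      exact fun _ => hz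
    · exact Eventually.of_forall fun z h' => absurd h' h
  filter_upwards [h1, hU] with z hz hzU β hβ
  by_cases h2 : val s β z ≤ 2
  · exact hz β ⟨z, hzU, h2⟩ hβ
  · exact hc.trans (not_le.1 h2)

theorem exists_eq {α : K.W ⊕ K.G} {x : V} {c : ℝ} (hc : 0 < c) (h : val s α x = c) :
    ∃ k, x k = lo K α k - c * rd s α ∨ x k = hi K α k + c * rd s α := by
  have h0 := rd_pos s α
  have h1 : infDist x (Icc (lo K α) (hi K α)) = c * rd s α := by
    rw [val, div_eq_iff h0.ne'] at h; exact h
  exact exists_coord (lo_le_hi α) (by positivity) h1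

section pairs

variable {x : V} {c : ℝ}

/-- two vertices -/
theorem not_two_vert (hc : c < 1) {i i' : K.W} (hii : i ≠ i')
    (h : val s (.inl i) x = c) (h' : val s (.inl i') x = c) : False := by
  have h1 : x ∈ closedBall (K.w i) (2 * s.r i) := (mem_box_iff s two_pos.le).2 (by rw [h]; linarith)
  have h2 : x ∈ closedBall (K.w i') (2 * s.r i') :=
    (mem_box_iff s two_pos.le).2 (by rw [h']; linarith)
  exact Set.disjoint_left.1 (s.U_disj i i' hii) h1 h2

/-- a point with `phi x = c > 1/2` is not close to a vertex -/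
theorem not_near_vert (hphi : s.phi x = c) (hc : 1 / 2 < c) (i : K.W) :
    x ∉ ball (K.w i) (s.r i / 2) := by
  intro h
  have h1 : x ∈ ball (K.w i) (1 / 2 * s.r i) := by
    have : 1 / 2 * s.r i = s.r i / 2 := by ring
    rwa [this]
  have h2 := (mem_ball_iff s (by norm_num : (0:ℝ) < 1 / 2)).1 h1
  have h3 := phi_le_val s (.inl i) x
  linarith

/-- two edges -/
theorem not_two_edges (hphi : s.phi x = c) (hc : c ∈ Ioo (1/2:ℝ) 1) {e e' : K.G} (hee : e ≠ e')
    (h : val s (.inr e) x = c) (h' : val s (.inr e') x = c) : False := by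
  have h1 : x ∈ K.nb e (2 * s.q e) := (mem_nb_iff s two_pos.le).2 (by rw [h]; linarith [hc.2])
  have h2 : x ∈ K.nb e' (2 * s.q e') :=
    (mem_nb_iff s two_pos.le).2 (by rw [h']; linarith [hc.2])
  obtain ⟨i, -, -, hi⟩ := s.tube_disj e e' hee x h1 h2
  exact not_near_vert s hphi hc.1 i hi

/-- an active edge is not active in its own direction -/
theorem edge_dir (hphi : s.phi x = c) (hc : c ∈ Ioo (1/2:ℝ) 1) {e : K.G}
    (h : val s (.inr e) x = c) :
    x (K.dir e) ≠ K.w (K.a e) (K.dir e) - c * s.q e ∧
      x (K.dir e) ≠ K.w (K.b e) (K.dir e) + c * s.q e := by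
  have hc0 : 0 < c := by linarith [hc.1]
  have hq : 0 < s.q e := rd_pos s (.inr e)
  have hle := (val_le s (α := .inr e) hc0.le).1 h.le
  have hle' : ∀ k, K.w (K.a e) k - c * s.q e ≤ x k ∧ x k ≤ K.w (K.b e) k + c * s.q e := hle
  constructor
  · intro he
    apply not_near_vert s hphi hc.1 (K.a e)
    rw [mem_ball, dist_pi_lt_iff (by have := (s.q_le e).1; linarith)]
    intro k
    have h8 := (s.q_le e).1
    rw [Real.dist_eq, abs_lt]
    by_cases hk : k = K.dir e
    · subst hk
      rw [he]
      constructor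
      · nlinarith [hc.2]
      · nlinarith
    · have h1 := hle' k
      have h2 := K.ab_off e k hk
      constructor
      · nlinarith [hc.2, h1.1]
      · nlinarith [hc.2, h1.2]
  · intro he
    apply not_near_vert s hphi hc.1 (K.b e)
    rw [mem_ball, dist_pi_lt_iff (by have := (s.q_le e).2; linarith)]
    intro k
    have h8 := (s.q_le e).2
    rw [Real.dist_eq, abs_lt]
    by_cases hk : k = K.dir e
    · subst hk
      rw [he]
      constructor
      · nlinarith
      · nlinarith [hc.2]
    · have h1 := hle' k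
      have h2 := K.ab_off e k hk
      constructor
      · nlinarith [hc.2, h1.1]
      · nlinarith [hc.2, h1.2]

/-- vertex and edge -/
theorem vert_edge (hphi : s.phi x = c) (hc : c ∈ Ioo (1/2:ℝ) 1) {i : K.W} {e : K.G}
    (h : val s (.inl i) x = c) (h' : val s (.inr e) x = c) :
    ∃ k k', k ≠ k' ∧ Sp v x c k ∧ Sp v x c k' := by
  have hc0 : 0 < c := by linarith [hc.1]
  have hq : 0 < s.q e := rd_pos s (.inr e)
  have hle : ∀ k, K.w (K.a e) k - c * s.q e ≤ x k ∧ x k ≤ K.w (K.b e) k + c * s.q e :=
    (val_le s (α := .inr e) hc0.le).1 h'.le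
  have h1 : x ∈ closedBall (K.w i) (2 * s.r i) :=
    (mem_box_iff s two_pos.le).2 (by rw [h]; linarith [hc.2])
  have h2 : x ∈ K.nb e (2 * s.q e) := (mem_nb_iff s two_pos.le).2 (by rw [h']; linarith [hc.2])
  have hi := s.U_edge i e x h1 h2
  have h8 : 8 * s.q e ≤ s.r i := by
    rcases hi with rfl | rfl
    · exact (s.q_le e).1
    · exact (s.q_le e).2
  obtain ⟨k, hk⟩ := exists_eq s hc0 h
  obtain ⟨k', hk'⟩ := exists_eq s hc0 h'
  refine ⟨k, k', ?_, sp_of s hk, sp_of s hk'⟩
  have hk'' : x k' = K.w (K.a e) k' - c * s.q e ∨ x k' = K.w (K.b e) k' + c * s.q e := hk'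
  have hkd : k' ≠ K.dir e := by
    rintro rfl
    have := edge_dir s hphi hc h'
    rcases hk'' with h3 | h3
    · exact this.1 h3
    · exact this.2 h3
  have hkk : x k = K.w i k - c * s.r i ∨ x k = K.w i k + c * s.r i := hk
  by_contra hne
  subst hne
  have h3 := hle k
  have h4 := K.ab_off e k hkd
  have h5 : K.w i k = K.w (K.a e) k := by
    rcases hi with rfl | rfl
    · rfl
    · exact h4.symm
  rw [← h4] at h3
  rw [h5] at hkk
  rcases hkk with h6 | h6
  · nlinarith [h3.1]
  · nlinarith [h3.2]

end pairs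

/-- **flat points** -/
theorem flat (hΛ : IsOpen Λ) {c : ℝ} (hc : c ∈ Ioo (1/2:ℝ) 1) {x : V} (hx : x ∈ s.F c) :
    (∃ k k', k ≠ k' ∧ Sp v x c k ∧ Sp v x c k') ∨
    ∃ (k : Fin 3) (σ : ℝ), (σ = 1 ∨ σ = -1) ∧ ∃ δ > 0, ∀ z ∈ ball x δ,
      (s.phi z = c ↔ z k = x k) ∧ (0 < σ * (s.phi z - c) ↔ x k < z k) := by
  have hc0 : 0 < c := by linarith [hc.1]
  have hc2 : c < 2 := by linarith [hc.2]
  rw [← setOf_eq s hc] at hx
  obtain ⟨hxΛ, hphi⟩ := hx
  obtain ⟨α, hα⟩ : ∃ α, val s α x = c := by
    rcases phi_attained s hxΛ with h | ⟨α, h⟩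
    · linarith
    · exact ⟨α, by rw [← h, hphi]⟩
  by_cases huniq : ∀ β, val s β x = c → β = α
  swap
  · left
    push Not at huniq
    obtain ⟨β, hβ, hne⟩ := huniq
    rcases α with i | e <;> rcases β with i' | e'
    · exact (not_two_vert s hc.2 (fun h => hne (by rw [h])) hβ hα).elim
    · exact vert_edge s hphi hc hα hβ
    · exact vert_edge s hphi hc hβ hα
    · exact (not_two_edges s hphi hc (fun h => hne (by rw [h])) hβ hα).elim
  obtain ⟨k, hk⟩ := exists_eq s hc0 hα
  by_cases huk : ∀ k', k' ≠ k → x k' ≠ lo K α k' - c * rd s α ∧ x k' ≠ hi K α k' + c * rd s α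
  swap
  · left
    push Not at huk
    obtain ⟨k', hk'k, hk'⟩ := huk
    refine ⟨k', k, hk'k, sp_of s (α := α) ?_, sp_of s hk⟩
    by_cases h : x k' = lo K α k' - c * rd s α
    · exact Or.inl h
    · exact Or.inr (hk' h)
  right
  have hr := rd_pos s α
  have hcr : 0 < c * rd s α := by positivity
  have hle := (val_le s (α := α) hc0.le).1 hα.le
  have hlohi := lo_le_hi (K := K) α
  -- the other coordinates
  have h1 : ∀ᶠ z in 𝓝 x, ∀ k', k' ≠ k → lo K α k' - c * rd s α < z k' ∧
      z k' < hi K α k' + c * rd s α := by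
    rw [eventually_all]
    intro k'
    by_cases hkk : k' = k
    · exact Eventually.of_forall fun z h => absurd hkk h
    · have ha : lo K α k' - c * rd s α < x k' :=
        lt_of_le_of_ne (hle k').1 (Ne.symm (huk k' hkk).1)
      have hb : x k' < hi K α k' + c * rd s α := lt_of_le_of_ne (hle k').2 (huk k' hkk).2
      have hcont : ContinuousAt (fun z : V => z k') x := (continuous_apply k').continuousAt
      filter_upwards [hcont.eventually_const_lt ha, hcont.eventually_lt_const hb] with z h3 h4 _
      exact ⟨h3, h4⟩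
  -- the other constraints
  have h2 : ∀ᶠ z in 𝓝 x, ∀ β, β ≠ α → c < val s β z := by
    filter_upwards [eventually_inactive s hxΛ hc2] with z hz β hβ
    apply hz
    refine lt_of_le_of_ne ?_ (fun h => hβ (huniq β h.symm))
    rw [← hphi]; exact phi_le_val s β x
  have h3 : ∀ᶠ z in 𝓝 x, (s.phi z < c ↔ val s α z < c) ∧ (s.phi z ≤ c ↔ val s α z ≤ c) := by
    filter_upwards [h2, hΛ.mem_nhds hxΛ] with z hz hzΛ
    have key := phi_le_val s α z
    have hor : s.phi z = val s α z ∨ c < s.phi z := by
      rcases phi_attained s hzΛ with h | ⟨β, h⟩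
      · right; rw [h]; exact hc2
      · by_cases hβ : β = α
        · left; rw [h, hβ]
        · right; rw [h]; exact hz β hβ
    constructor
    · constructor
      · intro h
        rcases hor with h' | h'
        · rw [← h']; exact h
        · exact absurd h (not_lt.2 h'.le)
      · intro h; exact key.trans_lt h
    · constructor
      · intro h
        rcases hor with h' | h'
        · rw [← h']; exact h
        · exact absurd h (not_le.2 h')
      · intro h; exact key.trans h
  have hcontk : ContinuousAt (fun z : V => z k) x := (continuous_apply k).continuousAt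
  rcases hk with hk | hk
  · -- below
    refine ⟨k, -1, Or.inr rfl, ?_⟩
    have h4 : ∀ᶠ z in 𝓝 x, z k < hi K α k + c * rd s α :=
      hcontk.eventually_lt_const (by have := hlohi k; linarith)
    obtain ⟨δ, hδ, hball⟩ := Metric.eventually_nhds_iff_ball.1 (h1.and (h3.and h4))
    refine ⟨δ, hδ, fun z hz => ?_⟩
    obtain ⟨a1, ⟨a2, a3⟩, a4⟩ := hball z hz
    have b1 : val s α z < c ↔ x k < z k := by
      rw [val_lt s hc0, hk]
      constructor
      · intro h; exact (h k).1
      · intro h k'
        by_cases hkk : k' = k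
        · subst hkk; exact ⟨h, a4⟩
        · exact a1 k' hkk
    have b2 : val s α z ≤ c ↔ x k ≤ z k := by
      rw [val_le s hc0.le, hk]
      constructor
      · intro h; exact (h k).1
      · intro h k'
        by_cases hkk : k' = k
        · subst hkk; exact ⟨h, a4.le⟩
        · exact ⟨(a1 k' hkk).1.le, (a1 k' hkk).2.le⟩
    rw [b1] at a2
    rw [b2] at a3
    constructor
    · constructor
      · intro h
        have c1 := a3.1 h.le
        have c2 : ¬ x k < z k := fun h' => (a2.2 h').ne h
        linarith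
      · intro h
        refine le_antisymm (a3.2 h.ge) ?_
        by_contra hlt
        have := a2.1 (not_le.1 hlt)
        linarith
    · rw [← a2]
      constructor
      · intro h; linarith
      · intro h; linarith
  · -- above
    refine ⟨k, 1, Or.inl rfl, ?_⟩
    have h4 : ∀ᶠ z in 𝓝 x, lo K α k - c * rd s α < z k :=
      hcontk.eventually_const_lt (by have := hlohi k; linarith)
    obtain ⟨δ, hδ, hball⟩ := Metric.eventually_nhds_iff_ball.1 (h1.and (h3.and h4))
    refine ⟨δ, hδ, fun z hz => ?_⟩
    obtain ⟨a1, ⟨a2, a3⟩, a4⟩ := hball z hz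
    have b1 : val s α z < c ↔ z k < x k := by
      rw [val_lt s hc0, hk]
      constructor
      · intro h; exact (h k).2
      · intro h k'
        by_cases hkk : k' = k
        · subst hkk; exact ⟨a4, h⟩
        · exact a1 k' hkk
    have b2 : val s α z ≤ c ↔ z k ≤ x k := by
      rw [val_le s hc0.le, hk]
      constructor
      · intro h; exact (h k).2
      · intro h k'
        by_cases hkk : k' = k
        · subst hkk; exact ⟨a4.le, h⟩
        · exact ⟨(a1 k' hkk).1.le, (a1 k' hkk).2.le⟩
    rw [b1] at a2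
    rw [b2] at a3
    constructor
    · constructor
      · intro h
        have c1 := a3.1 h.le
        have c2 : ¬ z k < x k := fun h' => (a2.2 h').ne h
        linarith
      · intro h
        refine le_antisymm (a3.2 h.le) ?_
        by_contra hlt
        have := a2.1 (not_le.1 hlt)
        linarith
    · constructor
      · intro h
        by_contra hlt
        have := a3.2 (not_lt.1 hlt)
        linarith
      · intro h
        by_contra hlt
        have := a3.1 (by linarith)
        linarith

end P073.PA644.PH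

namespace P073.PA644

open P073 P073.PR720 P073.PA691

/-- **TM-F**: facts about `phi` -/
theorem specPhi : BoxCx.SpecPhi := by
  intro Λ v K s hΛ _
  exact
    { cont := PH.phi_cont s
      lip := fun x hx => PH.exists_lip s hx
      le := fun c hc => PH.setOf_le s hc
      eq := fun c hc => PH.setOf_eq s hc
      flat := fun c hc x hx => PH.flat s hΛ hc hx }

end P073.PA644
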